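import Mathlib.Analysis.Complex.PhragmenLindelof

/-!
# P352 BWT [O3] (helper649), part 2: functions of exponential growth on the strip
-/

set_option linter.all false

noncomputable section

open Complex Filter Topology Asymptotics

namespace Vale.Agent.P352.BW.O649

/-- continuous on the closed strip `-1/2 ≤ Im z ≤ 0`, analytic inside, of exponential growth -/
structure Nice (F : ℂ → ℂ) : Prop where
  cont : ContinuousOn F {z | -(1 / 2) ≤ z.im ∧ z.im ≤ 0}
  diff : DifferentiableOn ℂ F {z | -(1 / 2) < z.im ∧ z.im < 0}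
  growth : ∃ C r : ℝ, 0 ≤ C ∧ 0 ≤ r ∧ ∀ z : ℂ, -(1 / 2) ≤ z.im → z.im ≤ 0 →
    ‖F z‖ ≤ C * Real.exp (r * |z.re|)

lemma Nice.const (c : ℂ) : Nice fun _ => c :=
  ⟨continuousOn_const, differentiableOn_const c, ‖c‖, 0, norm_nonneg c, le_rfl, fun z _ _ => by
    simp⟩

lemma Nice.add {F G : ℂ → ℂ} (hF : Nice F) (hG : Nice G) : Nice fun z => F z + G z := by
  obtain ⟨C, r, hC, hr, h⟩ := hF.growth
  obtain ⟨C', r', hC', hr', h'⟩ := hG.growth
  refine ⟨hF.cont.add hG.cont, hF.diff.add hG.diff, C + C', r + r', by positivity, by positivity,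
    fun z h1 h2 => ?_⟩
  have e1 : Real.exp (r * |z.re|) ≤ Real.exp ((r + r') * |z.re|) := by
    apply Real.exp_le_exp.2
    have := abs_nonneg z.re
    nlinarith
  have e2 : Real.exp (r' * |z.re|) ≤ Real.exp ((r + r') * |z.re|) := by
    apply Real.exp_le_exp.2
    have := abs_nonneg z.re
    nlinarith
  calc ‖F z + G z‖ ≤ ‖F z‖ + ‖G z‖ := norm_add_le _ _
    _ ≤ C * Real.exp (r * |z.re|) + C' * Real.exp (r' * |z.re|) := add_le_add (h z h1 h2) (h' z h1 h2)
    _ ≤ C * Real.exp ((r + r') * |z.re|) + C' * Real.exp ((r + r') * |z.re|) := by gcongr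
    _ = _ := by ring

lemma Nice.mul {F G : ℂ → ℂ} (hF : Nice F) (hG : Nice G) : Nice fun z => F z * G z := by
  obtain ⟨C, r, hC, hr, h⟩ := hF.growth
  obtain ⟨C', r', hC', hr', h'⟩ := hG.growth
  refine ⟨hF.cont.mul hG.cont, hF.diff.mul hG.diff, C * C', r + r', by positivity, by positivity,
    fun z h1 h2 => ?_⟩
  rw [norm_mul]
  calc ‖F z‖ * ‖G z‖ ≤ (C * Real.exp (r * |z.re|)) * (C' * Real.exp (r' * |z.re|)) :=
        mul_le_mul (h z h1 h2) (h' z h1 h2) (norm_nonneg _) (by positivity)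
    _ = _ := by rw [add_mul, Real.exp_add]; ring

lemma Nice.sum {ι : Type*} (s : Finset ι) {F : ι → ℂ → ℂ} (hF : ∀ i ∈ s, Nice (F i)) :
    Nice fun z => ∑ i ∈ s, F i z := by
  classical
  induction s using Finset.induction_on with
  | empty => simpa using Nice.const 0
  | insert i s hi ih =>
    simp only [Finset.sum_insert hi]
    exact (hF i (Finset.mem_insert_self i s)).add
      (ih fun j hj => hF j (Finset.mem_insert_of_mem hj))

lemma Nice.prod {ι : Type*} (s : Finset ι) {F : ι → ℂ → ℂ} (hF : ∀ i ∈ s, Nice (F i)) :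
    Nice fun z => ∏ i ∈ s, F i z := by
  classical
  induction s using Finset.induction_on with
  | empty => simpa using Nice.const 1
  | insert i s hi ih =>
    simp only [Finset.prod_insert hi]
    exact (hF i (Finset.mem_insert_self i s)).mul
      (ih fun j hj => hF j (Finset.mem_insert_of_mem hj))

lemma Nice.exp (c : ℝ) : Nice fun z => Complex.exp (c * z) := by
  refine ⟨by fun_prop, by fun_prop, 1, |c|, one_pos.le, abs_nonneg c, fun z _ _ => ?_⟩
  rw [norm_exp, one_mul]
  apply Real.exp_le_exp.2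
  rw [re_ofReal_mul, ← abs_mul]
  exact le_abs_self _

/-- the maximum principle of Phragmen and Lindelof -/
lemma Nice.pl {F : ℂ → ℂ} (hF : Nice F) {C : ℝ} (h0 : ∀ t : ℝ, ‖F t‖ ≤ C)
    (h1 : ∀ t : ℝ, ‖F (t - I / 2)‖ ≤ C) {z : ℂ} (hz : -(1 / 2) ≤ z.im) (hz' : z.im ≤ 0) :
    ‖F z‖ ≤ C := by
  have hcl : closure (Complex.im ⁻¹' Set.Ioo (-(1 / 2)) 0) ⊆
      {z : ℂ | -(1 / 2) ≤ z.im ∧ z.im ≤ 0} := by
    apply closure_minimal
    · exact fun z hz => ⟨hz.1.le, hz.2.le⟩
    · exact (isClosed_le continuous_const continuous_im).inter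
        (isClosed_le continuous_im continuous_const)
  refine PhragmenLindelof.horizontal_strip (a := -(1 / 2)) (b := 0)
    ⟨hF.diff, hF.cont.mono hcl⟩ ?_ ?_ ?_ hz hz'
  · obtain ⟨C', r, hC', hr, h⟩ := hF.growth
    refine ⟨1, ?_, r, ?_⟩
    · rw [lt_div_iff₀ (by norm_num)]
      have := Real.two_le_pi
      linarith
    · apply IsBigO.of_bound C'
      filter_upwards [mem_inf_of_right (mem_principal_self _)] with z hz
      refine (h z hz.1.le hz.2.le).trans ?_
      rw [Real.norm_eq_abs, abs_of_pos (Real.exp_pos _), one_mul]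
      gcongr
      have := Real.add_one_le_exp |z.re|
      linarith
  · intro z hz
    have : z = (z.re : ℂ) - I / 2 := by
      apply Complex.ext
      · simp
      · simp [hz]
    rw [this]
    exact h1 _
  · intro z hz
    have : z = (z.re : ℂ) := by
      apply Complex.ext
      · simp
      · simp [hz]
    rw [this]
    exact h0 _

end Vale.Agent.P352.BW.O649

end
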