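import Vale.Agent.P352.H746.PtGen
import Vale.Agent.P352.H755.R7h

/-!
# P352 BWT [O3] (helper649), part 1: the reflection `x ↦ x - 2 (b·x) a - 2 (a·x) b` and the boosts in
momentum space
-/

set_option linter.all false

noncomputable section

open MeasureTheory SchwartzMap Complex Filter Topology
open scoped SchwartzMap ComplexConjugate ENNReal

namespace Vale.Agent.P352.BW.O649

open GF (Ix V Fn bas eta sim o)
open H246 H496 H746 H755

/-- the reflection `x ↦ x - 2 (b·x) a - 2 (a·x) b`, as a matrix -/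
def Rm (a b : V) : Ix → V := bst a b (-2) (-2)

/-- the inverse of the boost that belongs to the modular parameter `t` -/
def bi (a b : V) (t : ℝ) : Ix → V :=
  bst a b (Real.exp (2 * Real.pi * t) - 1) (Real.exp (-(2 * Real.pi * t)) - 1)

lemma lam_sim (L : Ix → V) (x : Mink) : lam L x = WithLp.toLp 2 (sim 1 L 0 x.ofLp) := by
  ext n
  simp [sim]

lemma lam_bst (a b : V) (α β : ℝ) (x : Mink) (n : Ix) : lam (bst a b α β) x n =
    x n + (α * GF.mdot b x.ofLp) * a n + (β * GF.mdot a x.ofLp) * b n := by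
  rw [lam_sim, sim_bst]
  simp

variable {a b : V} (ha : IsNull a) (hb : IsNull b) (hab : GF.mdot a b = 1)

lemma md_comb (c : V) (a b : V) (x : V) (α β : ℝ) : GF.mdot c (x + α • a + β • b) =
    GF.mdot c x + α * GF.mdot c a + β * GF.mdot c b := by
  simp only [GF.mdot, Pi.add_apply, Pi.smul_apply, smul_eq_mul, Fin.sum_univ_four]
  ring

lemma md_comm (x y : V) : GF.mdot x y = GF.mdot y x := by
  unfold GF.mdot
  exact Finset.sum_congr rfl fun m _ => by ring

include ha hb hab

lemma bst_a (α β : ℝ) (x : V) :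
    GF.mdot a (sim 1 (bst a b α β) 0 x) = (1 + β) * GF.mdot a x := by
  rw [sim_bst, md_comb, ha.1, hab]; ring

lemma bst_b (α β : ℝ) (x : V) :
    GF.mdot b (sim 1 (bst a b α β) 0 x) = (1 + α) * GF.mdot b x := by
  rw [sim_bst, md_comb, hb.1, md_comm b a, hab]; ring

lemma bst_bst (α β α' β' : ℝ) (x : V) :
    sim 1 (bst a b α β) 0 (sim 1 (bst a b α' β') 0 x) =
      sim 1 (bst a b (α' + α * (1 + α')) (β' + β * (1 + β'))) 0 x := by
  rw [sim_bst a b α β, bst_a ha hb hab, bst_b ha hb hab, sim_bst, sim_bst]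
  funext n
  simp only [Pi.add_apply, Pi.smul_apply, smul_eq_mul]
  ring

lemma rr (x : V) : sim 1 (Rm a b) 0 (sim 1 (Rm a b) 0 x) = x := by
  unfold Rm
  rw [bst_bst ha hb hab, sim_bst]
  norm_num

lemma lam_rr (x : Mink) : lam (Rm a b) (lam (Rm a b) x) = x := by
  rw [lam_sim, lam_sim]
  exact congrArg (WithLp.toLp 2) (rr ha hb hab x.ofLp)

lemma mdot_rm (x y : Mink) : mdot (lam (Rm a b) x) (lam (Rm a b) y) = mdot x y := by
  have h : ∀ x y : V, GF.mdot (sim 1 (Rm a b) 0 x) (sim 1 (Rm a b) 0 y) = GF.mdot x y := by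
    intro x y
    have e : sim 1 (Rm a b) 0 y = y + (-2 * GF.mdot b y) • a + (-2 * GF.mdot a y) • b := by
      unfold Rm; rw [sim_bst]
    rw [e, md_comb, md_comm _ a, md_comm _ b]
    have e1 := bst_a ha hb hab (-2) (-2) x
    have e2 := bst_b ha hb hab (-2) (-2) x
    have e3 : GF.mdot (sim 1 (Rm a b) 0 x) y = GF.mdot x y + (-2 * GF.mdot b x) * GF.mdot a y +
        (-2 * GF.mdot a x) * GF.mdot b y := by
      rw [md_comm]
      unfold Rm
      rw [sim_bst, md_comb, md_comm y x, md_comm y a, md_comm y b]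
    rw [show GF.mdot a (sim 1 (Rm a b) 0 x) = (1 + -2) * GF.mdot a x from e1,
      show GF.mdot b (sim 1 (Rm a b) 0 x) = (1 + -2) * GF.mdot b x from e2, e3]
    ring
  rw [mdot_eq, mdot_eq, lam_sim, lam_sim]
  exact h _ _

/-- the reflection as a linear equivalence -/
def rE : Mink ≃L[ℝ] Mink :=
  (LinearEquiv.ofInvolutive (lamL (Rm a b)) (fun x => lam_rr ha hb hab x)).toContinuousLinearEquiv

lemma rE_apply (x : Mink) : rE ha hb hab x = lam (Rm a b) x := rfl

lemma mp_rm : MeasurePreserving (lam (Rm a b)) (volume : Measure Mink) volume := by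
  refine ⟨(continuous_lam (Rm a b)).measurable, ?_⟩
  have h2 : (lamL (Rm a b)) ∘ₗ (lamL (Rm a b)) = LinearMap.id := by
    ext1 x
    exact lam_rr ha hb hab x
  have h3 : LinearMap.det (lamL (Rm a b)) * LinearMap.det (lamL (Rm a b)) = 1 := by
    rw [← LinearMap.det_comp, h2, LinearMap.det_id]
  have h4 : |LinearMap.det (lamL (Rm a b))| = 1 := by
    have := mul_self_eq_one_iff.1 h3
    rcases this with h | h <;> rw [h] <;> norm_num
  have h := Measure.map_linearMap_addHaar_eq_smul_addHaar (μ := (volume : Measure Mink))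
    (f := lamL (Rm a b)) (by intro h0; rw [h0] at h3; norm_num at h3)
  rw [abs_inv, h4] at h
  simp only [inv_one, ENNReal.ofReal_one, one_smul] at h
  exact h

/-- `f ∘ R` -/
def cR (f : 𝓢(Mink, ℂ)) : 𝓢(Mink, ℂ) :=
  SchwartzMap.compCLMOfContinuousLinearEquiv ℂ (rE ha hb hab) f

lemma cR_apply (f : 𝓢(Mink, ℂ)) (x : Mink) : cR ha hb hab f x = f (lam (Rm a b) x) := by
  simp only [cR, compCLMOfContinuousLinearEquiv_apply, Function.comp_apply]
  rfl

lemma fl_cR (f : 𝓢(Mink, ℂ)) :
    fl (cR ha hb hab f) = fun x => fl f (sim 1 (Rm a b) 0 x) := by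
  funext x
  rw [fl_apply, cR_apply, lam_sim, fl_apply]

lemma mft_cR (f : 𝓢(Mink, ℂ)) (p : Mink) :
    mft (cR ha hb hab f) p = mft f (lam (Rm a b) p) := by
  unfold mft
  have hemb : MeasurableEmbedding (lam (Rm a b)) :=
    (rE ha hb hab).toHomeomorph.measurableEmbedding
  rw [← (mp_rm ha hb hab).integral_comp hemb
    (fun x => exp (I * (mdot (lam (Rm a b) p) x : ℂ)) * f x)]
  congr 1
  ext x
  rw [cR_apply, mdot_rm ha hb hab]

lemma isLor_bi (t : ℝ) : GF.IsLor (bi a b t) := by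
  refine isLor_bst ha hb hab ?_ ?_
  · rw [add_sub_cancel]; exact Real.exp_pos _
  · rw [add_sub_cancel, add_sub_cancel, ← Real.exp_add, add_neg_cancel, Real.exp_zero]

end Vale.Agent.P352.BW.O649

end
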